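import Vale.Agent.P092.H19.Re.Nrm
import Vale.Agent.P092.H793.Re.Blocks

/-!
P092, project RE, block [RE-S] (helper19), part 4: `HMG G` (Howe–Moore) for every noncompact
connected simple real linear group.
-/

set_option linter.all false

open Matrix Filter Topology Pointwise

namespace Vale.Agent.P092.H19.Re

open Vale.Agent.P092.H793.Re
open Vale.Agent.P092.H933 (Len)
open Vale.Agent.P092.H15 (Ctr HMG)

attribute [local instance] Matrix.linftyOpNormedRing Matrix.linftyOpNormedAlgebra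

variable {n : ℕ} {G : Type} [Group G] [TopologicalSpace G] {ρ : G →* SLn n}

/-- the elements `exp (diag x)`, `|x| ≤ R` -/
theorem compact_box (he : IsClosedEmbedding ρ) (R : ℝ) :
    IsCompact {a : G | ∃ x : Fin n → ℝ, (∀ i, |x i| ≤ R) ∧
      (ρ a).1 = diagonal fun i => Real.exp (x i)} := by
  have h1 : IsCompact ((fun x : Fin n → ℝ => (diagonal fun i => Real.exp (x i) : Mat n)) ''
      Set.univ.pi fun _ => Set.Icc (-R) R) := by
    refine (isCompact_univ_pi fun _ => isCompact_Icc).image ?_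
    refine Continuous.matrix_diagonal ?_
    fun_prop
  refine ((emb_mat he).isCompact_preimage h1).of_isClosed_subset ?_ ?_
  · have e : {a : G | ∃ x : Fin n → ℝ, (∀ i, |x i| ≤ R) ∧
        (ρ a).1 = diagonal fun i => Real.exp (x i)} = (fun g : G => (ρ g).1) ⁻¹'
          ((fun x : Fin n → ℝ => (diagonal fun i => Real.exp (x i) : Mat n)) ''
            Set.univ.pi fun _ => Set.Icc (-R) R) := by
      ext a
      simp only [Set.mem_setOf_eq, Set.mem_preimage, Set.mem_image, Set.mem_univ_pi, Set.mem_Icc,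
        abs_le]
      constructor
      · rintro ⟨x, h1, h2⟩; exact ⟨x, h1, h2.symm⟩
      · rintro ⟨x, h1, h2⟩; exact ⟨x, h1, h2.symm⟩
    rw [e]
    exact h1.isClosed.preimage (emb_mat he).continuous
  · rintro a ⟨x, h1, h2⟩
    refine ⟨x, ?_, h2.symm⟩
    simp only [Set.mem_univ_pi, Set.mem_Icc]
    exact fun i => abs_le.1 (h1 i)

theorem exp_diag (x : Fin n → ℝ) :
    NormedSpace.exp (diagonal x) = (diagonal fun i => Real.exp (x i) : Mat n) := by
  rw [Matrix.exp_diagonal]
  congr 1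
  funext i
  rw [Real.exp_eq_exp_ℝ, Pi.coe_exp]

/-- **[RE-S]**: the Howe–Moore property. -/
theorem hmg (hρ : RS ρ) {h : Fin n → ℝ} (hD : Dg ρ h) {r : ℕ} {p q : Fin r → Fin n}
    {w : Fin r → Fin n → ℝ} {E : Fin r → Mat n} (hS : Sr ρ h p q w E)
    (had : ∀ φ : ℝ → ℝ, ∀ X : Mat n, Lie ρ X → Lie ρ (Matrix.of fun a b => φ (h a - h b) * X a b))
    (gen : Subgroup.closure {g : G | ∃ X, Lie ρ X ∧ (ρ g).1 = NormedSpace.exp X} = ⊤)
    (car : ∀ g, ∃ (κ κ' : G) (x : Fin n → ℝ), Ort ρ κ ∧ Ort ρ κ' ∧ Dom ρ p q x ∧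
      (ρ g).1 = (ρ κ).1 * diagonal (fun a => Real.exp (x a)) * (ρ κ').1) : HMG G := by
  have he := hρ.emb
  haveI := topGroup he
  intro U hU f hf hctr
  choose κ κ' x hκ hκ' hx hcar using car
  choose a ha using fun b => exp_mem (hx b).1
  have ha' : ∀ b, (ρ (a b)).1 = diagonal fun i => Real.exp (x b i) := fun b => by
    rw [ha, exp_diag]
  have hb : ∀ b, b = κ b * a b * κ' b := by
    intro b
    apply val_inj he
    rw [map_mul, map_mul, Matrix.SpecialLinearGroup.coe_mul, Matrix.SpecialLinearGroup.coe_mul,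
      ha', hcar b]
  -- some simple root tends to infinity
  obtain ⟨j, hj⟩ : ∃ j, Tendsto (fun b => x b (p j) - x b (q j)) U atTop := by
    by_contra hno
    push Not at hno
    have h1 : ∀ j, ∃ C : ℝ, ∀ᶠ b in (U : Filter G), x b (p j) - x b (q j) ≤ C := by
      intro j
      have h2 := hno j
      rw [tendsto_atTop] at h2
      push Not at h2
      obtain ⟨C, hC⟩ := h2
      exact ⟨C, hC.mono fun b hb => hb.le⟩
    choose C hC using h1
    set R : ℝ := ∑ j, ∑ i, |C j| * |w j i| with hR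
    have h4 : ∀ᶠ b in (U : Filter G), ∀ j, x b (p j) - x b (q j) ≤ C j :=
      Filter.eventually_all.2 hC
    have hK : IsCompact ({g : G | Ort ρ g} * {a : G | ∃ x : Fin n → ℝ, (∀ i, |x i| ≤ R) ∧
        (ρ a).1 = diagonal fun i => Real.exp (x i)} * {g : G | Ort ρ g}) :=
      ((isCompact_ort he).mul (compact_box he R)).mul (isCompact_ort he)
    have h5 : ∀ᶠ b in (U : Filter G), b ∈ ({g : G | Ort ρ g} * {a : G | ∃ x : Fin n → ℝ,
        (∀ i, |x i| ≤ R) ∧ (ρ a).1 = diagonal fun i => Real.exp (x i)} * {g : G | Ort ρ g}) := by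
      refine h4.mono fun b hb4 => ?_
      rw [hb b]
      refine Set.mul_mem_mul (Set.mul_mem_mul (hκ b) ⟨x b, fun i => ?_, ha' b⟩) (hκ' b)
      have h6 := congrFun (hS.span (x b) (hx b).1) i
      rw [Finset.sum_apply] at h6
      rw [h6]
      refine (Finset.abs_sum_le_sum_abs _ _).trans ?_
      rw [hR]
      refine Finset.sum_le_sum fun j _ => ?_
      rw [Pi.smul_apply, smul_eq_mul, abs_mul]
      have h7 : |x b (p j) - x b (q j)| ≤ |C j| := by
        rw [abs_of_nonneg ((hx b).2 j)]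
        exact (hb4 j).trans (le_abs_self _)
      refine (mul_le_mul_of_nonneg_right h7 (abs_nonneg _)).trans ?_
      exact Finset.single_le_sum (f := fun i => |C j| * |w j i|)
        (fun i _ => mul_nonneg (abs_nonneg _) (abs_nonneg _)) (Finset.mem_univ i)
    have h8 : ∀ᶠ b in (U : Filter G), b ∈ ({g : G | Ort ρ g} * {a : G | ∃ x : Fin n → ℝ,
        (∀ i, |x i| ≤ R) ∧ (ρ a).1 = diagonal fun i => Real.exp (x i)} * {g : G | Ort ρ g})ᶜ :=
      hU hK.compl_mem_cocompact
    obtain ⟨b, hb1, hb2⟩ := (h5.and h8).exists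
    exact hb2 hb1
  -- limits of the compact parts
  obtain ⟨κ₀, hκ₀, hlim⟩ : ∃ κ₀ : G, Ort ρ κ₀ ∧ Tendsto κ U (𝓝 κ₀) := by
    have h1 : ((U.map κ : Ultrafilter G) : Filter G) ≤ 𝓟 {g : G | Ort ρ g} := by
      rw [le_principal_iff]
      exact Eventually.of_forall (f := (U : Filter G)) hκ
    obtain ⟨z, hz, hz2⟩ := (isCompact_ort he).ultrafilter_le_nhds _ h1
    exact ⟨z, hz, hz2⟩
  obtain ⟨κ₁, hκ₁, hlim'⟩ : ∃ κ₁ : G, Ort ρ κ₁ ∧ Tendsto κ' U (𝓝 κ₁) := by
    have h1 : ((U.map κ' : Ultrafilter G) : Filter G) ≤ 𝓟 {g : G | Ort ρ g} := by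
      rw [le_principal_iff]
      exact Eventually.of_forall (f := (U : Filter G)) hκ'
    obtain ⟨z, hz, hz2⟩ := (isCompact_ort he).ultrafilter_le_nhds _ h1
    exact ⟨z, hz, hz2⟩
  -- the conjugate length function
  set f' : G → ℝ := fun g => f (κ₀ * g * κ₀⁻¹) with hf'
  have hlen : Len f' := Vale.Agent.P092.H15.Len.comap_conj hf κ₀
  have hz : Zr ρ f' (E j) := by
    intro t e het
    refine hctr _ ⟨fun b => κ b * e * (κ b)⁻¹, ?_, ?_⟩
    · exact (hlim.mul tendsto_const_nhds).mul hlim.inv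
    · have h1 : Tendsto (fun b => (a b)⁻¹ * e * a b) U (𝓝 1) := by
        refine tendsto_one he ?_
        have e1 : ∀ b, (ρ ((a b)⁻¹ * e * a b)).1 =
            NormedSpace.exp ((Real.exp (-(x b (p j) - x b (q j))) * t) • E j) := by
          intro b
          have h2 := hS.Ew j (x b) (hx b).1
          have h3 := conj_eig h2 (-1)
          have h4 : (ρ (a b)⁻¹).1 = NormedSpace.exp ((-1 : ℝ) • diagonal (x b)) := by
            rw [exp_inv (ha b), neg_one_smul]
          have h5 : (ρ (a b)).1 = NormedSpace.exp ((-(-1) : ℝ) • diagonal (x b)) := by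
            rw [ha, neg_neg, one_smul]
          have h6 : ((ρ (a b)⁻¹).1)⁻¹ = (ρ (a b)).1 := by
            rw [← coe_inv, inv_inv]
          rw [map_mul, map_mul, Matrix.SpecialLinearGroup.coe_mul,
            Matrix.SpecialLinearGroup.coe_mul, het, ← h6,
            ← Matrix.exp_conj _ _ (isUnit_coe (ρ := ρ) (a b)⁻¹), h6, Matrix.mul_smul,
            Matrix.smul_mul, h4, h5, h3, smul_smul]
          congr 2
          rw [mul_comm t]
          congr 2
          ring
        simp only [e1]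
        refine tendsto_exp ?_ (E j)
        have h7 : Tendsto (fun b => Real.exp (-(x b (p j) - x b (q j)))) U (𝓝 0) :=
          Real.tendsto_exp_neg_atTop_nhds_zero.comp hj
        simpa using h7.mul_const t
      have h2 : Tendsto (fun b => (κ' b)⁻¹ * ((a b)⁻¹ * e * a b) * κ' b) U
          (𝓝 (κ₁⁻¹ * 1 * κ₁)) := (hlim'.inv.mul h1).mul hlim'
      rw [mul_one, inv_mul_cancel] at h2
      refine h2.congr fun b => ?_
      have h3 : b⁻¹ * (κ b * e * (κ b)⁻¹) * b =
          (κ b * a b * κ' b)⁻¹ * (κ b * e * (κ b)⁻¹) * (κ b * a b * κ' b) := by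
        rw [← hb b]
      rw [h3]
      group
  -- the `sl_2`-triple
  obtain ⟨y, hy, hy2⟩ := hS.Eh j
  have hET : Lie ρ (E j)ᵀ := lie_transpose hρ.adj (hS.El j)
  have hyL : Lie ρ (diagonal y) := by
    rw [← hy]; exact lie_bracket he (hS.El j) hET
  have hyE : diagonal y * E j - E j * diagonal y = (2 : ℝ) • E j := by
    rw [hS.Ew j y hyL, hy2]
  have trip : Trip (E j) (E j)ᵀ (diagonal y) := by
    refine ⟨hy, hyE, ?_⟩
    have h1 := congrArg Matrix.transpose hyE
    rw [Matrix.transpose_sub, Matrix.transpose_mul, Matrix.transpose_mul,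
      Matrix.diagonal_transpose, Matrix.transpose_smul] at h1
    have h2 : diagonal y * (E j)ᵀ - (E j)ᵀ * diagonal y = -((2 : ℝ) • (E j)ᵀ) := by
      rw [← h1]; abel
    exact h2
  have hzy : Zr ρ f' (diagonal y) := zr_trip he hlen trip (hS.El j) hET hz
  have hall := zr_all hρ hD had gen hlen hyL hzy (hS.El j) (hS.En j) two_ne_zero hyE
  intro g
  have := hall (κ₀⁻¹ * g * κ₀)
  have e : κ₀ * (κ₀⁻¹ * g * κ₀) * κ₀⁻¹ = g := by group
  rw [hf'] at this
  simp only [e] at this
  exact this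

end Vale.Agent.P092.H19.Re
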