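import Mathlib.Analysis.SpecialFunctions.Exponential
import Mathlib.Analysis.SpecialFunctions.ExpDeriv
import Mathlib.Analysis.Calculus.MeanValue
import Mathlib.Analysis.Calculus.Deriv.Mul
import Mathlib.Analysis.Calculus.Deriv.Pow
import Mathlib.Tactic.NoncommRing

/-!
P092, project RE, block [RE-S] (helper19): the identity of `SL_2` behind the Mautner phenomenon, for
an `sl_2`-triple in a Banach algebra.
-/

set_option linter.all false

open NormedSpace

namespace Vale.Agent.P092.H19.Re

variable {𝔸 : Type*} [NormedRing 𝔸] [NormedAlgebra ℝ 𝔸] [CompleteSpace 𝔸]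

theorem exp_neg_mul (X : 𝔸) (t : ℝ) : exp ((-t) • X) * exp (t • X) = 1 := by
  letI : NormedAlgebra ℚ 𝔸 := NormedAlgebra.restrictScalars ℚ ℝ 𝔸
  rw [← exp_add_of_commute, neg_smul, neg_add_cancel, exp_zero]
  exact ((Commute.refl X).smul_left _).smul_right _

theorem dexp (X : 𝔸) {g : ℝ → ℝ} {g' s : ℝ} (hg : HasDerivAt g g' s) :
    HasDerivAt (fun s => exp (g s • X)) (g' • (exp (g s • X) * X)) s := by
  have h := hasDerivAt_exp_smul_const (𝕂 := ℝ) X (g s)
  exact HasDerivAt.scomp s h hg

theorem dexp' (X : 𝔸) {g : ℝ → ℝ} {g' s : ℝ} (hg : HasDerivAt g g' s) :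
    HasDerivAt (fun s => exp (g s • X)) (g' • (X * exp (g s • X))) s := by
  have h := hasDerivAt_exp_smul_const' (𝕂 := ℝ) X (g s)
  exact HasDerivAt.scomp s h hg

theorem exp_mul_neg (X : 𝔸) (t : ℝ) : exp (t • X) * exp ((-t) • X) = 1 := by
  simpa using exp_neg_mul X (-t)

/-- a curve with `φ' = [X, φ]` is a conjugation orbit -/
theorem conj_of (X : 𝔸) {φ : ℝ → 𝔸} (h : ∀ t, HasDerivAt φ (X * φ t - φ t * X) t) (t : ℝ) :
    exp ((-t) • X) * φ t = φ 0 * exp ((-t) • X) := by
  have hd : ∀ s, HasDerivAt (fun s : ℝ => exp ((-s) • X) * φ s * exp (s • X)) 0 s := by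
    intro s
    have h1 : HasDerivAt (fun s : ℝ => exp ((-s) • X)) ((-1 : ℝ) • (exp ((-s) • X) * X)) s :=
      dexp X (hasDerivAt_neg s)
    have h2 := hasDerivAt_exp_smul_const' (𝕂 := ℝ) X s
    have h3 := (h1.mul (h s)).mul h2
    refine h3.congr_deriv ?_
    simp only [Pi.mul_apply]
    generalize exp ((-s) • X) = P
    generalize exp (s • X) = Q
    generalize φ s = Φ
    rw [neg_smul, one_smul]
    noncomm_ring
  have hc := is_const_of_deriv_eq_zero (fun s => (hd s).differentiableAt) (fun s => (hd s).deriv) t 0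
  simp only [neg_zero, zero_smul, exp_zero, one_mul, mul_one] at hc
  calc exp ((-t) • X) * φ t = exp ((-t) • X) * φ t * (exp (t • X) * exp ((-t) • X)) := by
        rw [exp_mul_neg, mul_one]
    _ = (exp ((-t) • X) * φ t * exp (t • X)) * exp ((-t) • X) := by noncomm_ring
    _ = φ 0 * exp ((-t) • X) := by rw [hc]

/-- the relations of `sl_2` -/
structure Trip (E F H : 𝔸) : Prop where
  ef : E * F - F * E = H
  he : H * E - E * H = (2 : ℝ) • E
  hf : H * F - F * H = -((2 : ℝ) • F)

variable {E F H : 𝔸}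

theorem Trip.c1 (h : Trip E F H) (v : ℝ) :
    F * exp ((-v) • E) = exp ((-v) • E) * (F + v • H - (v ^ 2) • E) := by
  have h0 : ∀ t : ℝ, HasDerivAt (fun t : ℝ => F + t • H - (t ^ 2) • E)
      (E * (F + t • H - (t ^ 2) • E) - (F + t • H - (t ^ 2) • E) * E) t := by
    intro t
    have h1 : HasDerivAt (fun t : ℝ => F + t • H - (t ^ 2) • E) ((1 : ℝ) • H - (2 * t) • E) t := by
      have a1 : HasDerivAt (fun t : ℝ => t • H) ((1 : ℝ) • H) t := (hasDerivAt_id t).smul_const H
      have a2 : HasDerivAt (fun t : ℝ => (t ^ 2) • E) ((2 * t) • E) t := by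
        have := (hasDerivAt_pow 2 t).smul_const E
        simpa using this
      exact (a1.const_add F).sub a2
    refine h1.congr_deriv ?_
    have e1 : E * (F + t • H - (t ^ 2) • E) - (F + t • H - (t ^ 2) • E) * E =
        (E * F - F * E) - t • (H * E - E * H) := by
      simp only [mul_sub, sub_mul, mul_add, add_mul, mul_smul_comm, smul_mul_assoc, smul_sub]
      abel
    rw [e1, h.ef, h.he, smul_smul, one_smul, mul_comm]
  have := conj_of E h0 v
  simp only [zero_smul, add_zero, ne_eq, OfNat.ofNat_ne_zero, not_false_eq_true, zero_pow,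
    sub_zero] at this
  exact this.symm

theorem Trip.c2 (h : Trip E F H) (s : ℝ) :
    exp ((-s) • H) * F = (Real.exp (2 * s)) • (F * exp ((-s) • H)) := by
  have h0 : ∀ t : ℝ, HasDerivAt (fun t : ℝ => (Real.exp (-(2 * t))) • F)
      (H * ((Real.exp (-(2 * t))) • F) - ((Real.exp (-(2 * t))) • F) * H) t := by
    intro t
    have h1 : HasDerivAt (fun t : ℝ => (Real.exp (-(2 * t))) • F)
        ((Real.exp (-(2 * t)) * (-(2 * 1))) • F) t := by
      have a1 : HasDerivAt (fun t : ℝ => -(2 * t)) (-(2 * 1)) t :=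
        ((hasDerivAt_id t).const_mul 2).neg
      exact a1.exp.smul_const F
    refine h1.congr_deriv ?_
    rw [mul_smul_comm, smul_mul_assoc, ← smul_sub, h.hf, smul_neg, smul_smul, ← neg_smul]
    congr 1; ring
  have := conj_of H h0 s
  simp only [mul_zero, neg_zero, Real.exp_zero, one_smul, mul_smul_comm] at this
  rw [← this, smul_smul, ← Real.exp_add]
  simp

/-- **`n(a) n⁻(c) n(-a e⁻ˢ) = n⁻(u) exp(sH)`**, `c = (eˢ - 1) / a`, `u = (1 - e⁻ˢ) / a`. -/
theorem Trip.main (h : Trip E F H) {a : ℝ} (ha : a ≠ 0) (s : ℝ) :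
    exp (a • E) * exp (((Real.exp s - 1) / a) • F) * exp ((-(a * Real.exp (-s))) • E) =
      exp (((1 - Real.exp (-s)) / a) • F) * exp (s • H) := by
  set L : ℝ → 𝔸 := fun s => exp (a • E) * exp (((Real.exp s - 1) / a) • F) *
    exp ((-(a * Real.exp (-s))) • E) with hLd
  set R : ℝ → 𝔸 := fun s => exp ((-s) • H) * exp ((-((1 - Real.exp (-s)) / a)) • F) with hRd
  set M : ℝ → 𝔸 := fun s => (Real.exp s / a) • F + H with hMd
  have hL : ∀ s, HasDerivAt L (L s * M s) s := by
    intro s
    have g1 : HasDerivAt (fun s : ℝ => (Real.exp s - 1) / a) (Real.exp s / a) s :=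
      ((Real.hasDerivAt_exp s).sub_const 1).div_const a
    have g2 : HasDerivAt (fun s : ℝ => -(a * Real.exp (-s))) (a * Real.exp (-s)) s := by
      have a1 : HasDerivAt (fun s : ℝ => Real.exp (-s)) (Real.exp (-s) * (-1)) s :=
        (hasDerivAt_neg s).exp
      have a2 := (a1.const_mul a).neg
      refine a2.congr_deriv ?_
      ring
    have d1 : HasDerivAt (fun s : ℝ => exp (((Real.exp s - 1) / a) • F))
        ((Real.exp s / a) • (exp (((Real.exp s - 1) / a) • F) * F)) s :=
      dexp F g1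
    have d2 : HasDerivAt (fun s : ℝ => exp ((-(a * Real.exp (-s))) • E))
        ((a * Real.exp (-s)) • (exp ((-(a * Real.exp (-s))) • E) * E)) s :=
      dexp E g2
    have d3 := (d1.const_mul (exp (a • E))).mul d2
    refine d3.congr_deriv ?_
    have hc1 := h.c1 (a * Real.exp (-s))
    have ee : Real.exp s * Real.exp (-s) = 1 := by rw [← Real.exp_add]; simp
    have e1 : exp (a • E) * (Real.exp s / a) • (exp (((Real.exp s - 1) / a) • F) * F) *
        exp ((-(a * Real.exp (-s))) • E) = (Real.exp s / a) • (exp (a • E) *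
          exp (((Real.exp s - 1) / a) • F) * (F * exp ((-(a * Real.exp (-s))) • E))) := by
      simp only [mul_smul_comm, smul_mul_assoc, mul_assoc]
    have e2 : (Real.exp s / a) * (a * Real.exp (-s)) = 1 := by
      field_simp; linarith
    have e3 : (Real.exp s / a) * (a * Real.exp (-s)) ^ 2 = a * Real.exp (-s) := by
      rw [pow_two, ← mul_assoc, e2, one_mul]
    rw [e1, hc1, hLd, hMd]
    simp only
    have e4 : (Real.exp s / a) • (exp (a • E) * exp (((Real.exp s - 1) / a) • F) *
        (exp ((-(a * Real.exp (-s))) • E) * (F + (a * Real.exp (-s)) • H -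
          ((a * Real.exp (-s)) ^ 2) • E))) =
        exp (a • E) * exp (((Real.exp s - 1) / a) • F) * exp ((-(a * Real.exp (-s))) • E) *
          ((Real.exp s / a) • F + H - (a * Real.exp (-s)) • E) := by
      rw [← mul_assoc, ← mul_smul_comm, smul_sub, smul_add, smul_smul, smul_smul, e2, e3, one_smul]
    rw [e4]
    simp only [mul_add, mul_sub, mul_smul_comm, mul_assoc]
    abel
  have hR : ∀ s, HasDerivAt R (-(M s * R s)) s := by
    intro s
    have g1 : HasDerivAt (fun s : ℝ => -((1 - Real.exp (-s)) / a)) (-(Real.exp (-s) / a)) s := by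
      have a1 : HasDerivAt (fun s : ℝ => Real.exp (-s)) (Real.exp (-s) * (-1)) s :=
        (hasDerivAt_neg s).exp
      have a2 := ((a1.const_sub 1).div_const a).neg
      refine a2.congr_deriv ?_
      ring
    have d1 : HasDerivAt (fun s : ℝ => exp ((-s) • H)) ((-1 : ℝ) • (H * exp ((-s) • H))) s :=
      dexp' H (hasDerivAt_neg s)
    have d2 : HasDerivAt (fun s : ℝ => exp ((-((1 - Real.exp (-s)) / a)) • F))
        ((-(Real.exp (-s) / a)) • (F * exp ((-((1 - Real.exp (-s)) / a)) • F))) s :=
      dexp' F g1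
    have d3 := d1.mul d2
    refine d3.congr_deriv ?_
    have hc2 := h.c2 s
    have e1 : exp ((-s) • H) * (-(Real.exp (-s) / a)) • (F * exp ((-((1 - Real.exp (-s)) / a)) • F))
        = -((Real.exp (-s) / a) • ((exp ((-s) • H) * F) *
          exp ((-((1 - Real.exp (-s)) / a)) • F))) := by
      rw [mul_smul_comm, neg_smul, mul_assoc]
    have e2 : Real.exp (-s) / a * Real.exp (2 * s) = Real.exp s / a := by
      rw [div_mul_eq_mul_div, ← Real.exp_add]; congr 2; ring
    rw [e1, hc2, smul_mul_assoc (Real.exp (2 * s)), smul_smul, e2, hMd, hRd]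
    simp only
    generalize exp ((-s) • H) = P
    generalize exp ((-((1 - Real.exp (-s)) / a)) • F) = Q
    rw [add_mul, smul_mul_assoc, smul_mul_assoc, neg_smul, one_smul, mul_assoc, mul_assoc]
    abel
  have hd : ∀ s, HasDerivAt (fun s => L s * R s) 0 s := by
    intro s
    refine ((hL s).mul (hR s)).congr_deriv ?_
    noncomm_ring
  have hc := is_const_of_deriv_eq_zero (fun s => (hd s).differentiableAt) (fun s => (hd s).deriv) s 0
  have h0 : L 0 * R 0 = 1 := by
    simp only [hLd, hRd]
    simp only [Real.exp_zero, sub_self, zero_div, zero_smul, exp_zero, mul_one, neg_zero]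
    exact exp_mul_neg E a
  have h1 : L s * R s = 1 := by rw [← h0]; exact hc
  have h2 : R s * (exp (((1 - Real.exp (-s)) / a) • F) * exp (s • H)) = 1 := by
    simp only [hRd]
    have h3 := exp_neg_mul F ((1 - Real.exp (-s)) / a)
    have h4 := exp_neg_mul H s
    generalize exp ((-s) • H) = P at h4 ⊢
    generalize exp ((-((1 - Real.exp (-s)) / a)) • F) = Q at h3 ⊢
    generalize exp (((1 - Real.exp (-s)) / a) • F) = Q' at h3 ⊢
    generalize exp (s • H) = P' at h4 ⊢
    calc P * Q * (Q' * P') = P * (Q * Q') * P' := by noncomm_ring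
      _ = 1 := by rw [h3, mul_one, h4]
  calc L s = L s * (R s * (exp (((1 - Real.exp (-s)) / a) • F) * exp (s • H))) := by
        rw [h2, mul_one]
    _ = (L s * R s) * (exp (((1 - Real.exp (-s)) / a) • F) * exp (s • H)) :=
        (mul_assoc _ _ _).symm
    _ = _ := by rw [h1, one_mul]

end Vale.Agent.P092.H19.Re
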