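import Vale.Agent.P092.H793.Re.L
import Vale.Agent.P092.H19.Re.Sl2
import Vale.Agent.P092.H15.HMAbs

/-!
P092, project RE, block [RE-S] (helper19), part 2: the Mautner phenomenon for closed groups of
matrices.
-/

set_option linter.all false

open Matrix Filter Topology

namespace Vale.Agent.P092.H19.Re

open Vale.Agent.P092.H793.Re
open Vale.Agent.P092.H933 (Len)

attribute [local instance] Matrix.linftyOpNormedRing Matrix.linftyOpNormedAlgebra

variable {n : ℕ} {G : Type} [Group G] [TopologicalSpace G] {ρ : G →* SLn n} {f : G → ℝ}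

theorem topGroup (he : IsClosedEmbedding ρ) : IsTopologicalGroup G :=
  he.isInducing.topologicalGroup ρ

/-- `f` vanishes on the one-parameter group of `X` -/
def Zr (ρ : G →* SLn n) (f : G → ℝ) (X : Mat n) : Prop :=
  ∀ (t : ℝ) (g : G), (ρ g).1 = NormedSpace.exp (t • X) → f g = 0

theorem val_inj (he : IsClosedEmbedding ρ) {g g' : G} (h : (ρ g).1 = (ρ g').1) : g = g' :=
  (emb_mat he).injective h

theorem tendsto_one (he : IsClosedEmbedding ρ) {ι : Type*} {l : Filter ι} {g : ι → G}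
    (h : Tendsto (fun i => (ρ (g i)).1) l (𝓝 1)) : Tendsto g l (𝓝 1) := by
  rw [(emb_mat he).isInducing.tendsto_nhds_iff]
  have e : (ρ 1).1 = (1 : Mat n) := by simp
  simpa [Function.comp_def, e] using h

theorem tendsto_exp {ι : Type*} {l : Filter ι} {t : ι → ℝ} (ht : Tendsto t l (𝓝 0)) (X : Mat n) :
    Tendsto (fun i => NormedSpace.exp (t i • X)) l (𝓝 1) := by
  have h : Tendsto (fun s : ℝ => NormedSpace.exp (s • X)) (𝓝 0) (𝓝 1) := by
    have : Continuous fun s : ℝ => NormedSpace.exp (s • X) :=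
      continuous_exp.comp (continuous_id.smul continuous_const)
    simpa using this.tendsto 0
  exact h.comp ht

/-- from the nilpotent element to the semisimple one -/
theorem zr_trip (he : IsClosedEmbedding ρ) (hf : Len f) {E F H : Mat n} (h : Trip E F H)
    (hE : Lie ρ E) (hF : Lie ρ F) (hz : Zr ρ f E) : Zr ρ f H := by
  haveI := topGroup he
  intro s g hg
  choose e e_spec using hE
  choose φ φ_spec using hF
  set a : ℕ → ℝ := fun m => (m : ℝ) + 1 with ha
  have ha0 : ∀ m, a m ≠ 0 := fun m => by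
    have : (0 : ℝ) ≤ m := Nat.cast_nonneg m
    simp only [ha]; positivity
  have hlim : ∀ c : ℝ, Tendsto (fun m => c / a m) atTop (𝓝 0) := by
    intro c
    have := tendsto_one_div_add_atTop_nhds_zero_nat (𝕜 := ℝ)
    have h2 := this.const_mul c
    simp only [mul_zero] at h2
    refine h2.congr fun m => ?_
    simp only [ha]; ring
  have key : ∀ m, g = (φ ((1 - Real.exp (-s)) / a m))⁻¹ * (e (a m) *
      φ ((Real.exp s - 1) / a m) * e (-(a m * Real.exp (-s)))) := by
    intro m
    rw [eq_inv_mul_iff_mul_eq]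
    apply val_inj he
    rw [map_mul, map_mul, map_mul, Matrix.SpecialLinearGroup.coe_mul,
      Matrix.SpecialLinearGroup.coe_mul, Matrix.SpecialLinearGroup.coe_mul, φ_spec, φ_spec, e_spec,
      e_spec, hg]
    exact (h.main (ha0 m) s).symm
  have hle : ∀ m, f g ≤ f (φ ((1 - Real.exp (-s)) / a m)) + f (φ ((Real.exp s - 1) / a m)) := by
    intro m
    rw [key m]
    have h1 := hf.mul (φ ((1 - Real.exp (-s)) / a m))⁻¹ (e (a m) *
      φ ((Real.exp s - 1) / a m) * e (-(a m * Real.exp (-s))))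
    have h2 := hf.mul (e (a m) * φ ((Real.exp s - 1) / a m)) (e (-(a m * Real.exp (-s))))
    have h3 := hf.mul (e (a m)) (φ ((Real.exp s - 1) / a m))
    rw [hz _ _ (e_spec (-(a m * Real.exp (-s))))] at h2
    rw [hz _ _ (e_spec (a m))] at h3
    rw [hf.inv] at h1
    linarith
  have t1 : ∀ c : ℝ, Tendsto (fun m => f (φ (c / a m))) atTop (𝓝 0) := by
    intro c
    refine hf.cont.comp (tendsto_one he ?_)
    simp only [φ_spec]
    exact tendsto_exp (hlim c) F
  have t2 := (t1 (1 - Real.exp (-s))).add (t1 (Real.exp s - 1))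
  rw [add_zero] at t2
  exact le_antisymm (ge_of_tendsto' t2 hle) (hf.nonneg g)

/-- one-parameter groups determine their generators -/
theorem eq_of_exp_eq {X Y : Mat n}
    (h : ∀ t : ℝ, NormedSpace.exp (t • X) = NormedSpace.exp (t • Y)) : X = Y := by
  have h2 := hasDerivAt_exp_smul_const (𝕂 := ℝ) X (0 : ℝ)
  have h3 := hasDerivAt_exp_smul_const (𝕂 := ℝ) Y (0 : ℝ)
  simp only [zero_smul, NormedSpace.exp_zero, one_mul] at h2 h3
  exact (h2.congr_of_eventuallyEq (Eventually.of_forall fun t => (h t).symm)).unique h3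

/-- conjugation by the exponential of `D` on an eigenvector of `ad D` -/
theorem conj_eig {D X : Mat n} {μ : ℝ} (h : D * X - X * D = μ • X) (t : ℝ) :
    NormedSpace.exp (t • D) * X * NormedSpace.exp ((-t) • D) = Real.exp (μ * t) • X := by
  have h0 : ∀ t : ℝ, HasDerivAt (fun t : ℝ => Real.exp (μ * t) • X)
      (D * (Real.exp (μ * t) • X) - (Real.exp (μ * t) • X) * D) t := by
    intro t
    have a1 : HasDerivAt (fun t : ℝ => μ * t) μ t := by
      simpa using (hasDerivAt_id t).const_mul μ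
    refine (a1.exp.smul_const X).congr_deriv ?_
    rw [Matrix.mul_smul, Matrix.smul_mul, ← smul_sub, h, smul_smul]
  have h1 := conj_of D h0 t
  simp only [mul_zero, Real.exp_zero, one_smul] at h1
  have h3 : X * NormedSpace.exp ((-t) • D) = NormedSpace.exp ((-t) • D) * (Real.exp (μ * t) • X) :=
    h1.symm
  have h2 : NormedSpace.exp (t • D) * NormedSpace.exp ((-t) • D) = 1 := exp_mul_neg D t
  rw [Matrix.mul_assoc, h3, ← Matrix.mul_assoc, h2, Matrix.one_mul]

/-- **Mautner**: eigenvectors with nonzero eigenvalue -/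
theorem zr_eig (he : IsClosedEmbedding ρ) (hf : Len f) {D X : Mat n} (hD : Lie ρ D)
    (hz : Zr ρ f D) {μ : ℝ} (hμ : μ ≠ 0) (h : D * X - X * D = μ • X) : Zr ρ f X := by
  haveI := topGroup he
  intro t g hg
  choose d d_spec using hD
  have hk : ∀ N : ℕ, d (-(N : ℝ) / μ) ∈ hf.ker := fun N => hz _ _ (d_spec _)
  refine hf.mem_of_contract (d := fun N : ℕ => d (-(N : ℝ) / μ)) hk (tendsto_one he ?_)
  have e : ∀ N : ℕ, (ρ (d (-(N : ℝ) / μ) * g * (d (-(N : ℝ) / μ))⁻¹)).1 =
      NormedSpace.exp ((Real.exp (-(N : ℝ)) * t) • X) := by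
    intro N
    have e0 : (ρ (d (-(N : ℝ) / μ))⁻¹).1 = NormedSpace.exp ((-(-(N : ℝ) / μ)) • D) := by
      have e1 := coe_mul_inv (ρ := ρ) (d (-(N : ℝ) / μ))
      rw [d_spec] at e1
      have e2 : NormedSpace.exp ((-(-(N : ℝ) / μ)) • D) * NormedSpace.exp ((-(N : ℝ) / μ) • D) = 1 :=
        exp_neg_mul D (-(N : ℝ) / μ)
      calc (ρ (d (-(N : ℝ) / μ))⁻¹).1 = (NormedSpace.exp ((-(-(N : ℝ) / μ)) • D) *
            NormedSpace.exp ((-(N : ℝ) / μ) • D)) * (ρ (d (-(N : ℝ) / μ))⁻¹).1 := by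
              rw [e2, Matrix.one_mul]
        _ = _ := by rw [Matrix.mul_assoc, e1, Matrix.mul_one]
    rw [map_mul, map_mul, Matrix.SpecialLinearGroup.coe_mul, Matrix.SpecialLinearGroup.coe_mul,
      e0, hg, d_spec]
    have e3 := conj_eig h (-(N : ℝ) / μ)
    have e4 : μ * (-(N : ℝ) / μ) = -(N : ℝ) := by field_simp
    rw [e4] at e3
    have hu : IsUnit (NormedSpace.exp ((-(N : ℝ) / μ) • D)) := Matrix.isUnit_exp _
    have e5 := Matrix.exp_conj (NormedSpace.exp ((-(N : ℝ) / μ) • D)) (t • X) hu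
    have e6 : (NormedSpace.exp ((-(N : ℝ) / μ) • D))⁻¹ =
        NormedSpace.exp ((-(-(N : ℝ) / μ)) • D) := by
      rw [neg_smul, Matrix.exp_neg]
    rw [e6] at e5
    rw [← e5]
    congr 1
    rw [Matrix.mul_smul, Matrix.smul_mul, e3, smul_smul, mul_comm]
  simp only [e]
  refine tendsto_exp ?_ X
  have h1 : Tendsto (fun N : ℕ => Real.exp (-(N : ℝ))) atTop (𝓝 0) :=
    Real.tendsto_exp_neg_atTop_nhds_zero.comp tendsto_natCast_atTop_atTop
  simpa using h1.mul_const t

end Vale.Agent.P092.H19.Re
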