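import Vale.Agent.P092.H19.Re.Mau

/-!
P092, project RE, block [RE-S] (helper19), part 3: a length function which vanishes on a
one-parameter group of hyperbolic elements vanishes.
-/

set_option linter.all false

open Matrix Filter Topology

namespace Vale.Agent.P092.H19.Re

open Vale.Agent.P092.H793.Re
open Vale.Agent.P092.H933 (Len)

attribute [local instance] Matrix.linftyOpNormedRing Matrix.linftyOpNormedAlgebra

variable {n : ℕ} {G : Type} [Group G] [TopologicalSpace G] {ρ : G →* SLn n} {f : G → ℝ}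

theorem len_closure [IsTopologicalGroup G] (hf : Len f) {S : Set G} (hS : ∀ s ∈ S, f s = 0) {g : G}
    (hg : g ∈ closure S) : f g = 0 := by
  by_contra hne
  have hpos : 0 < f g := lt_of_le_of_ne (hf.nonneg g) (Ne.symm hne)
  have h1 : ∀ᶠ x in 𝓝 (1 : G), f x < f g := hf.cont.eventually (gt_mem_nhds hpos)
  have h2 : Tendsto (fun s : G => g * s⁻¹) (𝓝 g) (𝓝 1) := by
    have : Continuous fun s : G => g * s⁻¹ := by fun_prop
    simpa using this.tendsto g
  obtain ⟨s, hs1, hs2⟩ := mem_closure_iff_nhds.1 hg _ (h2.eventually h1)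
  have h3 := hf.mul (g * s⁻¹) s
  rw [inv_mul_cancel_right, hS s hs2, add_zero] at h3
  exact absurd hs1 (not_lt.2 h3)

/-- the part of `X` in the eigenspace of `ad (diag y)` -/
noncomputable def Pr (y : Fin n → ℝ) (μ : ℝ) (X : Mat n) : Mat n :=
  Matrix.of fun a b => if y a - y b = μ then X a b else 0

theorem pr_eig (y : Fin n → ℝ) (μ : ℝ) (X : Mat n) :
    diagonal y * Pr y μ X - Pr y μ X * diagonal y = μ • Pr y μ X := by
  ext a b
  simp only [Matrix.sub_apply, Matrix.diagonal_mul, Matrix.mul_diagonal, Matrix.smul_apply, Pr,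
    Matrix.of_apply, smul_eq_mul]
  split_ifs with h
  · rw [← h]; ring
  · simp

theorem pr_sum (y : Fin n → ℝ) (X : Mat n) :
    ∑ μ ∈ Finset.univ.image (fun p : Fin n × Fin n => y p.1 - y p.2), Pr y μ X = X := by
  ext a b
  rw [Matrix.sum_apply]
  simp only [Pr, Matrix.of_apply]
  rw [Finset.sum_ite_eq, if_pos]
  exact Finset.mem_image.2 ⟨(a, b), Finset.mem_univ _, rfl⟩

theorem lie_pr {h : Fin n → ℝ} (hD : Dg ρ h)
    (had : ∀ φ : ℝ → ℝ, ∀ X : Mat n, Lie ρ X → Lie ρ (Matrix.of fun a b => φ (h a - h b) * X a b))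
    {y : Fin n → ℝ} (hy : Lie ρ (diagonal y)) (μ : ℝ) {X : Mat n} (hX : Lie ρ X) :
    Lie ρ (Pr y μ X) := by
  classical
  have := had (fun z => if ∃ a b, h a - h b = z ∧ y a - y b = μ then 1 else 0) X hX
  convert this using 1
  ext a b
  simp only [Pr, Matrix.of_apply]
  by_cases hab : y a - y b = μ
  · rw [if_pos hab, if_pos ⟨a, b, rfl, hab⟩, one_mul]
  · rw [if_neg hab, if_neg, zero_mul]
    rintro ⟨c, d, h1, h2⟩
    exact hab ((hD.gen a b c d h1.symm y hy).trans h2)

theorem exp_inv {g : G} {X : Mat n} (hg : (ρ g).1 = NormedSpace.exp X) :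
    (ρ g⁻¹).1 = NormedSpace.exp (-X) := by
  rw [coe_inv, hg, Matrix.exp_neg]

/-- **A length function which vanishes on a one-parameter group of hyperbolic elements vanishes.** -/
theorem zr_all (hρ : RS ρ) {h : Fin n → ℝ} (hD : Dg ρ h)
    (had : ∀ φ : ℝ → ℝ, ∀ X : Mat n, Lie ρ X → Lie ρ (Matrix.of fun a b => φ (h a - h b) * X a b))
    (gen : Subgroup.closure {g : G | ∃ X, Lie ρ X ∧ (ρ g).1 = NormedSpace.exp X} = ⊤)
    (hf : Len f) {y : Fin n → ℝ} (hy : Lie ρ (diagonal y)) (hz : Zr ρ f (diagonal y)) {E : Mat n}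
    (hE : Lie ρ E) (hE0 : E ≠ 0) {ν : ℝ} (hν : ν ≠ 0)
    (hyE : diagonal y * E - E * diagonal y = ν • E) (g : G) : f g = 0 := by
  have he := hρ.emb
  haveI := topGroup he
  set T : Set G := {g | ∃ (X : Mat n) (μ : ℝ), Lie ρ X ∧ diagonal y * X - X * diagonal y = μ • X ∧ μ ≠ 0 ∧
    (ρ g).1 = NormedSpace.exp X} with hT
  set N₀ : Subgroup G := Subgroup.closure T with hN₀
  set N : Subgroup G := N₀.topologicalClosure with hN
  have hsub : ∀ x ∈ N₀, x ∈ N := fun x hx => N₀.le_topologicalClosure hx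
  have hTN : ∀ x ∈ T, x ∈ N := fun x hx => hsub x (Subgroup.subset_closure hx)
  -- `f` vanishes on `N`
  have hker0 : ∀ x ∈ N₀, f x = 0 := by
    have : N₀ ≤ hf.ker := by
      rw [hN₀, Subgroup.closure_le]
      rintro x ⟨X, μ, h1, h2, h3, h4⟩
      exact zr_eig he hf hy hz h3 h2 1 x (by rw [one_smul]; exact h4)
    exact fun x hx => this hx
  have hker : ∀ x ∈ N, f x = 0 := fun x hx => len_closure hf hker0 hx
  -- conjugation by exponentials of eigenvectors
  have hconj : ∀ (X : Mat n) (μ : ℝ), Lie ρ X → diagonal y * X - X * diagonal y = μ • X →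
      ∀ g : G, (ρ g).1 = NormedSpace.exp X → ∀ x ∈ N, g * x * g⁻¹ ∈ N := by
    intro X μ hX hX2 g hg
    by_cases hμ : μ = 0
    · have hcom : Commute (diagonal y : Mat n) X := by
        rw [hμ, zero_smul, sub_eq_zero] at hX2
        exact hX2
      have hc1 : Commute (diagonal y : Mat n) (ρ g).1 := by
        rw [hg]; exact hcom.exp_right
      have hc2 : Commute (diagonal y : Mat n) (ρ g⁻¹).1 := by
        rw [exp_inv hg]; exact hcom.neg_right.exp_right
      have h0 : ∀ x ∈ N₀, g * x * g⁻¹ ∈ N₀ := by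
        intro x hx
        have : N₀ ≤ N₀.comap (MulAut.conj g).toMonoidHom := by
          rw [hN₀, Subgroup.closure_le]
          rintro x ⟨Z, κ, h1, h2, h3, h4⟩
          show g * x * g⁻¹ ∈ Subgroup.closure T
          refine Subgroup.subset_closure ⟨(ρ g).1 * Z * (ρ g⁻¹).1, κ, lie_conj g h1, ?_, h3, ?_⟩
          · have e1 : diagonal y * ((ρ g).1 * Z * (ρ g⁻¹).1) =
                (ρ g).1 * (diagonal y * Z) * (ρ g⁻¹).1 := by
              rw [← Matrix.mul_assoc, ← Matrix.mul_assoc, hc1.eq, Matrix.mul_assoc (ρ g).1]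
            have e2 : (ρ g).1 * Z * (ρ g⁻¹).1 * diagonal y =
                (ρ g).1 * (Z * diagonal y) * (ρ g⁻¹).1 := by
              rw [Matrix.mul_assoc, ← hc2.eq, ← Matrix.mul_assoc, Matrix.mul_assoc (ρ g).1]
            rw [e1, e2, ← Matrix.sub_mul, ← Matrix.mul_sub, h2, Matrix.mul_smul, Matrix.smul_mul]
          · rw [map_mul, map_mul, Matrix.SpecialLinearGroup.coe_mul,
              Matrix.SpecialLinearGroup.coe_mul, h4, coe_inv, Matrix.exp_conj _ _ (isUnit_coe g)]
        exact this hx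
      intro x hx
      have hcont : Continuous fun x : G => g * x * g⁻¹ := by fun_prop
      exact map_mem_closure (f := fun x : G => g * x * g⁻¹) hcont hx h0
    · intro x hx
      have hgN : g ∈ N := hTN g ⟨X, μ, hX, hX2, hμ, hg⟩
      exact N.mul_mem (N.mul_mem hgN hx) (N.inv_mem hgN)
  -- the closed normaliser
  let M : Subgroup G :=
    { carrier := {g | ∀ x ∈ N, g * x * g⁻¹ ∈ N ∧ g⁻¹ * x * g ∈ N}
      mul_mem' := by
        intro a b ha hb x hx
        refine ⟨?_, ?_⟩
        · have := (ha _ (hb x hx).1).1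
          have e : a * (b * x * b⁻¹) * a⁻¹ = a * b * x * (a * b)⁻¹ := by group
          rwa [e] at this
        · have := (hb _ (ha x hx).2).2
          have e : b⁻¹ * (a⁻¹ * x * a) * b = (a * b)⁻¹ * x * (a * b) := by group
          rwa [e] at this
      one_mem' := by intro x hx; simpa using hx
      inv_mem' := by
        intro a ha x hx
        refine ⟨?_, ?_⟩
        · rw [inv_inv]; exact (ha x hx).2
        · rw [inv_inv]; exact (ha x hx).1 }
  have hNc : IsClosed (N : Set G) := N₀.isClosed_topologicalClosure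
  have hMc : IsClosed (M : Set G) := by
    have e : (M : Set G) = ⋂ x ∈ N, ({g : G | g * x * g⁻¹ ∈ (N : Set G)} ∩
        {g : G | g⁻¹ * x * g ∈ (N : Set G)}) := by
      ext g
      simp only [Set.mem_iInter, Set.mem_inter_iff, Set.mem_setOf_eq, SetLike.mem_coe]
      rfl
    rw [e]
    refine isClosed_biInter fun x _ => (hNc.preimage ?_).inter (hNc.preimage ?_)
    · fun_prop
    · fun_prop
  set S : Set (Mat n) := (fun g : G => (ρ g).1) '' (M : Set G) with hS
  have hSc : IsClosed S := (emb_mat he).isClosedMap _ hMc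
  have hS1 : (1 : Mat n) ∈ S := ⟨1, M.one_mem, by simp⟩
  have hSm : ∀ x ∈ S, ∀ y ∈ S, x * y ∈ S := by
    rintro _ ⟨a, ha, rfl⟩ _ ⟨b, hb, rfl⟩
    exact ⟨a * b, M.mul_mem ha hb, by simp⟩
  have hLS : ∀ (X : Mat n) (μ : ℝ), Lie ρ X → diagonal y * X - X * diagonal y = μ • X →
      LieOf S X := by
    intro X μ hX hX2 t
    obtain ⟨g, hg⟩ := hX t
    have h1 : diagonal y * (t • X) - (t • X) * diagonal y = μ • (t • X) := by
      rw [Matrix.mul_smul, Matrix.smul_mul, ← smul_sub, hX2, smul_comm]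
    have h2 : diagonal y * (-(t • X)) - (-(t • X)) * diagonal y = μ • (-(t • X)) := by
      rw [Matrix.mul_neg, Matrix.neg_mul, smul_neg, ← h1]; abel
    refine ⟨g, fun x hx => ⟨hconj _ μ (lie_smul t hX) h1 g hg x hx, ?_⟩, hg⟩
    have := hconj _ μ (lie_neg (lie_smul t hX)) h2 g⁻¹ (exp_inv hg) x hx
    rwa [inv_inv] at this
  have hall : ∀ X : Mat n, Lie ρ X → LieOf S X := by
    intro X hX
    rw [← pr_sum y X]
    refine Finset.sum_induction _ (LieOf S) (fun a b ha hb => LieOf.add hSc hS1 hSm ha hb) ?_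
      fun μ _ => hLS _ μ (lie_pr hD had hy μ hX) (pr_eig y μ X)
    intro t
    rw [smul_zero, NormedSpace.exp_zero]
    exact hS1
  have hMtop : M = ⊤ := by
    rw [eq_top_iff, ← gen, Subgroup.closure_le]
    rintro g ⟨X, hX, hg⟩
    obtain ⟨m, hm, hm2⟩ := hall X hX 1
    rw [one_smul] at hm2
    have : m = g := val_inj he (by rw [hg]; exact hm2)
    rwa [← this]
  have hnorm : N.Normal := ⟨fun x hx g => by
    have : g ∈ M := by rw [hMtop]; exact Subgroup.mem_top g
    exact (this x hx).1⟩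
  rcases hρ.simple N hnorm with hc | hc
  · exfalso
    obtain ⟨d, hd⟩ := hy 1
    have h1 : ∀ t : ℝ, NormedSpace.exp (t • (Real.exp ν • E)) = NormedSpace.exp (t • E) := by
      intro t
      obtain ⟨g, hg⟩ := hE t
      have hgT : g ∈ T := ⟨t • E, ν, lie_smul t hE, by
        rw [Matrix.mul_smul, Matrix.smul_mul, ← smul_sub, hyE, smul_comm], hν, hg⟩
      have hgc := Subgroup.mem_center_iff.1 (hc (hTN g hgT)) d
      have e1 : d * g * d⁻¹ = g := by rw [hgc, mul_inv_cancel_right]
      have e2 := congrArg (fun g => (ρ g).1) e1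
      simp only [map_mul, Matrix.SpecialLinearGroup.coe_mul] at e2
      rw [hg, coe_inv, ← Matrix.exp_conj _ _ (isUnit_coe d), Matrix.mul_smul, Matrix.smul_mul] at e2
      rw [← e2]
      congr 2
      have e3 := conj_eig hyE 1
      rw [mul_one] at e3
      rw [← e3, hd, ← Matrix.exp_neg, neg_smul]
    have h4 : Real.exp ν • E = E := eq_of_exp_eq h1
    have h5 : (Real.exp ν - 1) • E = 0 := by rw [sub_smul, one_smul, h4, sub_self]
    rcases smul_eq_zero.1 h5 with h6 | h6
    · have : Real.exp ν = 1 := by linarith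
      exact hν (Real.exp_eq_one_iff ν |>.1 this)
    · exact hE0 h6
  · exact hker g (by rw [hc]; exact Subgroup.mem_top g)

end Vale.Agent.P092.H19.Re
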